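import Vale.Agent.P150.Lower.Separation
import Vale.Agent.P150.Gap.Goe

/-!
For every `β`, with high probability the mixing time is at least a multiple of `log n` and the gap
is at most one.
-/

open MeasureTheory Filter Real
open scoped Topology ENNReal

namespace Vale.Agent.P150.Lower

open Gap

/-- Mixing takes time at least `c log n` and the gap is at most one. -/
def AtLeastLogMixing {n : ℕ} (β : ℝ) (g : Edge n → ℝ) (c : ℝ) : Prop :=
  (∀ lam : ℝ, (∀ f : Conf n → ℝ,
      lam * (avg β g (fun x => f x ^ 2) - avg β g f ^ 2) ≤ -avg β g (fun x => f x * gen β g f x)) →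
    lam ≤ 1) ∧
  ∀ t : ℝ, 0 ≤ t → t ≤ c * log n → ∃ x, 1 / 4 < tvDist β g t x

theorem tendsto_atLeastLogMixing {β : ℝ} (hβ : 0 ≤ β) :
    ∃ c : ℝ, 0 < c ∧
      Tendsto (fun n => disorder n {g | ¬ AtLeastLogMixing β g c}) atTop (𝓝 0) := by
  set M := 3 * β
  set R := 2 * β ^ 2
  set A := growth M R + 4 with hA
  have hA0 : 0 < A := by simp only [hA, growth, M, R]; positivity
  refine ⟨1 / (2 * A), by positivity, ?_⟩
  set ε := 1 / (16 * (β + 1)) with hε
  have hε0 : 0 < ε := by positivity
  have hlim := ((tendsto_quadLe (ε := 1) one_pos).add (tendsto_quadLe_neg (ε := 1) one_pos)).add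
    ((tendsto_rows (ε := 1) one_pos).add (tendsto_entries hε0))
  simp only [add_zero] at hlim
  refine tendsto_of_tendsto_of_tendsto_of_le_of_le' tendsto_const_nhds hlim
    (Eventually.of_forall fun n => bot_le) ?_
  filter_upwards [eventually_gt_atTop 256] with n hn
  refine (measure_mono (t := (({g | ¬ QuadLe (sym g) ((2 + 1) * √n)} ∪
      {g | ¬ QuadLe (fun i j => -sym g i j) ((2 + 1) * √n)}) ∪
      ({g | ¬ ∀ i, ∑ j, sym g i j ^ 2 ≤ (1 + 1) * n} ∪
      {g | ¬ ∀ i j, |sym g i j| ≤ ε * √n}))) fun g hg => ?_).trans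
    ((measure_union_le _ _).trans (add_le_add (measure_union_le _ _) (measure_union_le _ _)))
  by_contra hne
  simp only [Set.mem_union, Set.mem_ofPred_eq, not_or, not_not] at hne
  obtain ⟨⟨h1, h2⟩, h3, h4⟩ := hne
  have hn0 : (256:ℝ) < n := by exact_mod_cast hn
  have hs : 0 < √(n:ℝ) := sqrt_pos.2 (by linarith)
  have hb : 0 ≤ β / √n := by positivity
  have hbs : β / √n * √n = β := div_mul_cancel₀ _ hs.ne'
  have hup : QuadLe (skJ β g) M := fun v => by
    have := mul_le_mul_of_nonneg_left (h1 v) hb
    rw [Finset.mul_sum] at this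
    simp only [Finset.mul_sum, skJ] at this ⊢
    refine le_trans (le_of_eq ?_) (this.trans (le_of_eq ?_))
    · exact Finset.sum_congr rfl fun i _ => Finset.sum_congr rfl fun j _ => by ring
    · refine Finset.sum_congr rfl fun i _ => ?_
      simp only [M]
      linear_combination 3 * v i ^ 2 * hbs
  have hlo : QuadLe (fun i j => -skJ β g i j) M := fun v => by
    have := mul_le_mul_of_nonneg_left (h2 v) hb
    rw [Finset.mul_sum] at this
    simp only [Finset.mul_sum, skJ] at this ⊢
    refine le_trans (le_of_eq ?_) (this.trans (le_of_eq ?_))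
    · exact Finset.sum_congr rfl fun i _ => Finset.sum_congr rfl fun j _ => by ring
    · refine Finset.sum_congr rfl fun i _ => ?_
      simp only [M]
      linear_combination 3 * v i ^ 2 * hbs
  have hd : ∀ i j, |skJ β g i j| ≤ 1 / 16 := fun i j => by
    rw [skJ, abs_mul, abs_of_nonneg hb]
    refine (mul_le_mul_of_nonneg_left (h4 i j) hb).trans ?_
    calc β / √n * (ε * √n) = β / (16 * (β + 1)) := by rw [hε]; field_simp
      _ ≤ _ := by rw [div_le_div_iff₀ (by positivity) (by norm_num)]; linarith
  have hR : ∀ i, ∑ j, skJ β g i j ^ 2 ≤ R := fun i => by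
    simp only [skJ, mul_pow, ← Finset.mul_sum]
    refine (mul_le_mul_of_nonneg_left (h3 i) (sq_nonneg _)).trans (le_of_eq ?_)
    rw [div_pow, sq_sqrt (by linarith)]
    simp only [R]
    field_simp
    ring
  refine hg ⟨fun lam => gap_le_one β g (by omega), fun t ht0 ht => ?_⟩
  refine exists_tvDist_gt β g (by positivity) (by positivity) hup hlo hd hR ht0 ?_
  have hAt : A * t ≤ log n / 2 := by
    refine (mul_le_mul_of_nonneg_left ht hA0.le).trans (le_of_eq ?_)
    field_simp
  have h16 : (16:ℝ) < √n := by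
    rw [show (16:ℝ) = √256 by rw [show (256:ℝ) = 16 ^ 2 by norm_num, sqrt_sq (by norm_num)]]
    exact sqrt_lt_sqrt (by norm_num) hn0
  calc 16 * exp (A * t) ≤ 16 * √n := by
        gcongr
        rw [← log_sqrt (by linarith)] at hAt
        exact (exp_le_exp.2 hAt).trans (exp_log hs).le
    _ < √n * √n := by gcongr
    _ = n := mul_self_sqrt (by linarith)

end Vale.Agent.P150.Lower
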