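import Vale.Agent.P150.Lower.Flip

/-!
The squared gradient grows at most exponentially along the semigroup, so the variance of a
Lipschitz function under the dynamics started from a point stays small up to times of order `log n`.
-/

open Finset

namespace Vale.Agent.P150.Lower

open Gap

variable {n : ℕ}

lemma bilinear_le {J : Fin n → Fin n → ℝ} (hs : ∀ i j, J i j = J j i) {M : ℝ} (hup : QuadLe J M)
    (hlo : QuadLe (fun i j => -J i j) M) (a b : Fin n → ℝ) :
    ∑ i, ∑ j, J i j * a i * b j ≤ M / 2 * (∑ i, a i ^ 2 + ∑ i, b i ^ 2) := by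
  have h1 := hup (a + b)
  have h2 := hlo (a - b)
  have hs' : ∑ i, ∑ j, J i j * b i * a j = ∑ i, ∑ j, J i j * a i * b j := by
    rw [sum_comm]
    exact sum_congr rfl fun i _ => sum_congr rfl fun j _ => by rw [hs j i]; ring
  have e1 : ∑ i, ∑ j, J i j * (a + b) i * (a + b) j + ∑ i, ∑ j, -J i j * (a - b) i * (a - b) j =
      4 * ∑ i, ∑ j, J i j * a i * b j := by
    calc _ = 2 * ∑ i, ∑ j, J i j * a i * b j + 2 * ∑ i, ∑ j, J i j * b i * a j := by
          simp only [mul_sum, ← sum_add_distrib]
          exact sum_congr rfl fun i _ => sum_congr rfl fun j _ => by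
            simp only [Pi.add_apply, Pi.sub_apply]; ring
      _ = _ := by rw [hs']; ring
  have e2 : ∑ i, (a + b) i ^ 2 + ∑ i, (a - b) i ^ 2 = 2 * (∑ i, a i ^ 2 + ∑ i, b i ^ 2) := by
    simp only [mul_add, mul_sum, ← sum_add_distrib]
    exact sum_congr rfl fun i _ => by simp only [Pi.add_apply, Pi.sub_apply]; ring
  have e3 := congrArg (M * ·) e2
  simp only [mul_add] at e3
  linarith

/-- Growth rate of the squared gradient. -/
def growth (M R : ℝ) : ℝ := 8 * M + 304 * R + 1

lemma gradient_step (β : ℝ) (g : Edge n → ℝ) {M R : ℝ} (hM : 0 ≤ M)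
    (hup : QuadLe (skJ β g) M) (hlo : QuadLe (fun i j => -skJ β g i j) M)
    (hd : ∀ i j, |skJ β g i j| ≤ 1 / 16) (hR : ∀ i, ∑ j, skJ β g i j ^ 2 ≤ R)
    (f : Conf n → ℝ) (x : Conf n) :
    2 * ∑ j, jump j f x * jump j (gen β g f) x ≤
      gen β g (gradSq f) x + growth M R * gradSq f x := by
  set J := skJ β g
  set p := fun i => rate β g i x
  set u := fun i => jump i f x
  set v := fun i j => jump j f (flipAt i x)
  have key : ∀ i j, 2 * u j * (rate β g i (flipAt j x) * jump i f (flipAt j x) - p i * u i) ≤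
      p i * (v i j ^ 2 - u j ^ 2) + 8 * (J i j * (p i * (1 - p i) * spin x i * u i) * (spin x j * u j))
        + J i j ^ 2 * (24 * u i ^ 2 + 280 * u j ^ 2) := by
    intro i j
    have hp := rate_pos β g i x
    have hp1 := rate_le_one β g i x
    rcases eq_or_ne i j with rfl | hij
    · have e1 : J i i = 0 := skJ_diag β g i
      have e2 : v i i = -u i := jump_flip_self i f x
      rw [rate_flip_self, jump_flip_self, e1, e2]
      simp only [u, p]
      nlinarith [sq_nonneg (jump i f x)]
    · set δ := 4 * J i j * spin x i * spin x j with hδ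
      have hδa : |δ| = 4 * |J i j| := by
        simp [hδ, abs_mul, abs_spin]
      have hδsq : δ ^ 2 = 16 * J i j ^ 2 := by
        rw [← sq_abs δ, hδa, mul_pow, sq_abs]; norm_num
      obtain ⟨h1, h2⟩ := rate_variation hp hp1 (δ := δ) (by rw [hδa]; linarith [hd i j])
      rw [← rate_flip β g hij x] at h1 h2
      set D := rate β g i (flipAt j x) - rate β g i x
      have hS := jump_comm i j f x
      have hi : jump i f (flipAt j x) = u i + (v i j - u j) := by simp only [u, v]; linarith
      rw [hi, show rate β g i (flipAt j x) = p i + D by simp [D, p]]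
      set S := v i j - u j with hSdef
      have hA : 2 * u j * (D * S) ≤ p i * S ^ 2 + 256 * J i j ^ 2 * u j ^ 2 := by
        refine le_of_mul_le_mul_left ?_ hp
        have h3 : D ^ 2 * u j ^ 2 ≤ 256 * J i j ^ 2 * p i * u j ^ 2 :=
          mul_le_mul_of_nonneg_right (h2.trans (le_of_eq (by rw [hδsq]; ring))) (sq_nonneg _)
        nlinarith [sq_nonneg (p i * S - D * u j)]
      have hB : 2 * (D - p i * (1 - p i) * δ) * (u i * u j) ≤
          24 * J i j ^ 2 * (u i ^ 2 + u j ^ 2) := by
        have h4 : |D - p i * (1 - p i) * δ| ≤ 24 * J i j ^ 2 := h1.trans (le_of_eq (by rw [hδsq]; ring))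
        have h5 : 2 * |u i * u j| ≤ u i ^ 2 + u j ^ 2 := by
          rw [abs_mul]; nlinarith [sq_nonneg (|u i| - |u j|), sq_abs (u i), sq_abs (u j)]
        calc 2 * (D - p i * (1 - p i) * δ) * (u i * u j)
            ≤ |D - p i * (1 - p i) * δ| * (2 * |u i * u j|) := by
              refine (le_abs_self _).trans (le_of_eq ?_)
              simp only [abs_mul, abs_two]; ring
          _ ≤ _ := mul_le_mul h4 h5 (by positivity) (by positivity)
      have hv : v i j = u j + S := by rw [hSdef]; ring
      rw [hv]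
      have hδ' : 2 * (p i * (1 - p i) * δ) * (u i * u j) =
          8 * (J i j * (p i * (1 - p i) * spin x i * u i) * (spin x j * u j)) := by rw [hδ]; ring
      linarith
  have hl : 2 * ∑ j, u j * jump j (gen β g f) x =
      ∑ i, ∑ j, 2 * u j * (rate β g i (flipAt j x) * jump i f (flipAt j x) - p i * u i) := by
    rw [sum_comm, mul_sum]
    refine sum_congr rfl fun j _ => ?_
    rw [← mul_sum]
    simp only [jump, gen_eq_rate, sum_sub_distrib, p, u]
    ring
  have hg : gen β g (gradSq f) x = ∑ i, ∑ j, p i * (v i j ^ 2 - u j ^ 2) := by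
    rw [gen_eq_rate, ← sum_neg_distrib]
    refine sum_congr rfl fun i _ => ?_
    simp only [jump, gradSq, ← mul_sum, sum_sub_distrib, p, u, v]
    ring
  have hbil := bilinear_le (skJ_symm β g) hup hlo (fun i => p i * (1 - p i) * spin x i * u i)
    (fun j => spin x j * u j)
  have hsq : ∀ i, spin x i ^ 2 = 1 := fun i => by rw [← sq_abs, abs_spin, one_pow]
  have hU : gradSq f x = ∑ i, u i ^ 2 := rfl
  have hbil' : ∑ i, ∑ j, J i j * (p i * (1 - p i) * spin x i * u i) * (spin x j * u j) ≤
      M * gradSq f x := by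
    refine hbil.trans ?_
    have h1 : ∑ i, (p i * (1 - p i) * spin x i * u i) ^ 2 ≤ ∑ i, u i ^ 2 := sum_le_sum fun i _ => by
      rw [mul_pow, mul_pow, hsq, mul_one]
      refine mul_le_of_le_one_left (sq_nonneg _) ?_
      have hp := rate_pos β g i x
      have hp1 := rate_le_one β g i x
      exact pow_le_one₀ (mul_nonneg hp.le (by simp only [p]; linarith))
        (by simp only [p]; nlinarith)
    have h2 : ∑ j, (spin x j * u j) ^ 2 = ∑ i, u i ^ 2 := by simp [mul_pow, hsq]
    rw [h2, hU]
    nlinarith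
  have hrem : ∑ i, ∑ j, J i j ^ 2 * (24 * u i ^ 2 + 280 * u j ^ 2) ≤ 304 * R * gradSq f x := by
    simp only [mul_add, sum_add_distrib]
    rw [sum_comm (f := fun i j => J i j ^ 2 * (280 * u j ^ 2)), hU]
    have h1 : ∑ i, ∑ j, J i j ^ 2 * (24 * u i ^ 2) ≤ ∑ i, R * (24 * u i ^ 2) :=
      sum_le_sum fun i _ => by
        rw [← sum_mul]; exact mul_le_mul_of_nonneg_right (hR i) (by positivity)
    have h2 : ∑ j, ∑ i, J i j ^ 2 * (280 * u j ^ 2) ≤ ∑ j, R * (280 * u j ^ 2) :=
      sum_le_sum fun j _ => by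
        rw [← sum_mul]
        refine mul_le_mul_of_nonneg_right (le_trans (le_of_eq ?_) (hR j)) (by positivity)
        exact sum_congr rfl fun i _ => by simp only [J]; rw [skJ_symm β g i j]
    simp only [← mul_sum] at h1 h2
    linarith
  have hsum := sum_le_sum fun i (_ : i ∈ univ) => sum_le_sum fun j (_ : j ∈ univ) => key i j
  simp only [sum_add_distrib, ← mul_sum] at hsum
  have hU0 : 0 ≤ gradSq f x := sum_nonneg fun i _ => sq_nonneg _
  rw [hl, hg, growth]
  simp only [← mul_sum] at *
  linarith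

lemma semi_mono (β : ℝ) (g : Edge n → ℝ) {t : ℝ} (ht : 0 ≤ t) {f h : Conf n → ℝ}
    (hfh : ∀ x, f x ≤ h x) (x : Conf n) : semi β g t f x ≤ semi β g t h x := by
  have := semi_nonneg β g ht (f := h - f) (fun y => sub_nonneg.2 (hfh y)) x
  simpa using this

lemma semi_le_const (β : ℝ) (g : Edge n → ℝ) {t : ℝ} (ht : 0 ≤ t) {f : Conf n → ℝ} {B : ℝ}
    (hf : ∀ x, f x ≤ B) (x : Conf n) : semi β g t f x ≤ B := by
  have := semi_mono β g ht (h := B • (1 : Conf n → ℝ)) (fun y => by simpa using hf y) x
  simpa [semi_one] using this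

lemma hasDerivAt_semi_comp (β : ℝ) (g : Edge n → ℝ) {F : ℝ → Conf n → ℝ} {F' : Conf n → ℝ}
    {s : ℝ} (hF : HasDerivAt F F' s) (x : Conf n) :
    HasDerivAt (fun r => semi β g r (F r) x) (semi β g s (gen β g (F s) + F') x) s := by
  have h := hasDerivAt_pi.1 ((hasDerivAt_exp_smul_const (gen β g) s).clm_apply hF) x
  simpa [semi, map_add] using h

lemma hasDerivAt_semi_sub (β : ℝ) (g : Edge n → ℝ) (f : Conf n → ℝ) (t s : ℝ) (x : Conf n) :
    HasDerivAt (fun r => semi β g (t - r) f x) (-gen β g (semi β g (t - s) f) x) s := by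
  have hb : HasDerivAt (fun u => semi β g (t - u) f) (-gen β g (semi β g (t - s) f)) s := by
    simpa [Function.comp_def] using
      HasDerivAt.scomp s (hasDerivAt_semi_apply β g f (t - s)) ((hasDerivAt_id s).const_sub t)
  exact hasDerivAt_pi.1 hb x

/-- The squared gradient grows at most like `exp (a t)`. -/
lemma gradSq_semi_le (β : ℝ) (g : Edge n → ℝ) {M R : ℝ} (hM : 0 ≤ M)
    (hup : QuadLe (skJ β g) M) (hlo : QuadLe (fun i j => -skJ β g i j) M)
    (hd : ∀ i j, |skJ β g i j| ≤ 1 / 16) (hR : ∀ i, ∑ j, skJ β g i j ^ 2 ≤ R)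
    {f : Conf n → ℝ} {B : ℝ} (hB : ∀ x, gradSq f x ≤ B) {t : ℝ} (ht : 0 ≤ t) (x : Conf n) :
    gradSq (semi β g t f) x ≤ Real.exp (growth M R * t) * B := by
  set a := growth M R
  set F := fun r => semi β g (t - r) f
  set G := fun s => Real.exp (a * s) * semi β g s (gradSq (F s)) x
  have hU : ∀ s, HasDerivAt (fun r => gradSq (F r))
      (fun y => -(2 * ∑ j, jump j (F s) y * jump j (gen β g (F s)) y)) s := by
    intro s
    refine hasDerivAt_pi.2 fun y => ?_
    refine (HasDerivAt.fun_sum (u := (univ : Finset (Fin n))) fun j _ =>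
      ((hasDerivAt_semi_sub β g f t s y).sub
        (hasDerivAt_semi_sub β g f t s (flipAt j y))).pow 2).congr_deriv ?_
    rw [mul_sum, ← sum_neg_distrib]
    refine sum_congr rfl fun j _ => ?_
    simp only [jump, F, Pi.sub_apply]
    push_cast
    ring
  have hG : ∀ s, HasDerivAt G (Real.exp (a * s) * semi β g s (gen β g (gradSq (F s)) +
      (fun y => -(2 * ∑ j, jump j (F s) y * jump j (gen β g (F s)) y)) + a • gradSq (F s)) x) s := by
    intro s
    refine ((((hasDerivAt_id s).const_mul a).exp).mul (hasDerivAt_semi_comp β g (hU s) x)).congr_deriv ?_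
    simp only [map_add, map_smul, Pi.add_apply, Pi.smul_apply, smul_eq_mul, id]
    ring
  have hmono : MonotoneOn G (Set.Ici 0) := by
    refine monotoneOn_of_deriv_nonneg (convex_Ici 0)
      (fun s _ => (hG s).continuousAt.continuousWithinAt)
      (fun s _ => (hG s).differentiableAt.differentiableWithinAt) fun s hs => ?_
    rw [(hG s).deriv]
    refine mul_nonneg (Real.exp_pos _).le (semi_nonneg β g (interior_subset hs) (fun y => ?_) x)
    have := gradient_step β g hM hup hlo hd hR (F s) y
    simp only [Pi.add_apply, Pi.smul_apply, smul_eq_mul]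
    linarith
  have key : G 0 ≤ G t := hmono Set.self_mem_Ici ht ht
  simp only [G, F, mul_zero, Real.exp_zero, one_mul, sub_zero, sub_self, semi_zero,
    one_apply_eq_self] at key
  exact key.trans (mul_le_mul_of_nonneg_left (semi_le_const β g ht hB x) (Real.exp_pos _).le)

lemma gen_sq (β : ℝ) (g : Edge n → ℝ) (F : Conf n → ℝ) (x : Conf n) :
    gen β g (fun y => F y ^ 2) x - 2 * F x * gen β g F x = ∑ i, rate β g i x * jump i F x ^ 2 := by
  rw [gen_eq_rate, gen_eq_rate, mul_neg, mul_sum, neg_sub_neg, ← sum_sub_distrib]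
  refine sum_congr rfl fun i _ => ?_
  simp only [jump]
  ring

/-- The variance of a Lipschitz function under `P_t(x,·)`. -/
lemma semi_var_le (β : ℝ) (g : Edge n → ℝ) {M R : ℝ} (hM : 0 ≤ M) (hR0 : 0 ≤ R)
    (hup : QuadLe (skJ β g) M) (hlo : QuadLe (fun i j => -skJ β g i j) M)
    (hd : ∀ i j, |skJ β g i j| ≤ 1 / 16) (hR : ∀ i, ∑ j, skJ β g i j ^ 2 ≤ R)
    {f : Conf n → ℝ} {B : ℝ} (hB : ∀ x, gradSq f x ≤ B) {t : ℝ} (ht : 0 ≤ t) (x : Conf n) :
    semi β g t (fun y => f y ^ 2) x - semi β g t f x ^ 2 ≤ Real.exp (growth M R * t) * B := by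
  set a := growth M R
  have ha : 1 ≤ a := by simp only [a, growth]; linarith
  have hB0 : 0 ≤ B := (sum_nonneg fun i _ => sq_nonneg _).trans (hB x)
  set F := fun r => semi β g (t - r) f
  set G := fun s => semi β g s (fun y => F s y ^ 2) x + B / a * Real.exp (a * (t - s))
  have hU : ∀ s, HasDerivAt (fun r => fun y => F r y ^ 2)
      (fun y => -(2 * F s y * gen β g (F s) y)) s := by
    intro s
    refine hasDerivAt_pi.2 fun y => ((hasDerivAt_semi_sub β g f t s y).pow 2).congr_deriv ?_
    simp only [F]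
    push_cast
    ring
  have hG : ∀ s, HasDerivAt G (semi β g s (gen β g (fun y => F s y ^ 2) +
      (fun y => -(2 * F s y * gen β g (F s) y))) x - B * Real.exp (a * (t - s))) s := by
    intro s
    refine ((hasDerivAt_semi_comp β g (hU s) x).add
      (((((hasDerivAt_id s).const_sub t).const_mul a).exp).const_mul (B / a))).congr_deriv ?_
    simp only [id]
    field_simp
    ring
  have hanti : AntitoneOn G (Set.Icc 0 t) := by
    refine antitoneOn_of_deriv_nonpos (convex_Icc 0 t)
      (fun s _ => (hG s).continuousAt.continuousWithinAt)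
      (fun s _ => (hG s).differentiableAt.differentiableWithinAt) fun s hs => ?_
    obtain ⟨hs0, hst⟩ := interior_subset hs
    rw [(hG s).deriv, sub_nonpos]
    refine semi_le_const β g hs0 (fun y => ?_) x
    simp only [Pi.add_apply]
    rw [← sub_eq_add_neg, gen_sq]
    calc ∑ i, rate β g i y * jump i (F s) y ^ 2 ≤ gradSq (F s) y :=
          sum_le_sum fun i _ => mul_le_of_le_one_left (sq_nonneg _) (rate_le_one β g i y)
      _ ≤ Real.exp (a * (t - s)) * B := gradSq_semi_le β g hM hup hlo hd hR hB (by linarith) y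
      _ = _ := mul_comm _ _
  have key : G t ≤ G 0 := hanti (Set.left_mem_Icc.2 ht) (Set.right_mem_Icc.2 ht) ht
  simp only [G, F, sub_zero, sub_self, semi_zero, one_apply_eq_self, mul_zero, Real.exp_zero] at key
  have h1 : B / a * Real.exp (a * t) ≤ Real.exp (a * t) * B := by
    rw [mul_comm]
    exact mul_le_mul_of_nonneg_left (div_le_self hB0 ha) (Real.exp_pos _).le
  linarith [div_nonneg hB0 (by linarith : (0:ℝ) ≤ a)]

end Vale.Agent.P150.Lower
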