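import Vale.Agent.P150.Gap.Mixing

/-!
Flip rates of the SK heat-bath dynamics and their first variation.
-/

open Finset

namespace Vale.Agent.P150.Lower

open Gap

variable {n : ℕ}

/-- The rate at which the spin at `i` flips. -/
noncomputable def rate (β : ℝ) (g : Edge n → ℝ) (i : Fin n) (x : Conf n) : ℝ :=
  gibbs β g (flipAt i x) / (gibbs β g x + gibbs β g (flipAt i x))

/-- The discrete derivative at `i`. -/
def jump (i : Fin n) (f : Conf n → ℝ) (x : Conf n) : ℝ := f x - f (flipAt i x)

/-- The squared gradient. -/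
def gradSq (f : Conf n → ℝ) (x : Conf n) : ℝ := ∑ i, jump i f x ^ 2

lemma rate_pos (β : ℝ) (g : Edge n → ℝ) (i : Fin n) (x : Conf n) : 0 < rate β g i x :=
  div_pos (gibbs_pos β g _) (add_pos (gibbs_pos β g _) (gibbs_pos β g _))

lemma rate_le_one (β : ℝ) (g : Edge n → ℝ) (i : Fin n) (x : Conf n) : rate β g i x ≤ 1 := by
  rw [rate, div_le_one (add_pos (gibbs_pos β g _) (gibbs_pos β g _))]
  linarith [gibbs_pos β g x]

lemma rate_flip_self (β : ℝ) (g : Edge n → ℝ) (i : Fin n) (x : Conf n) :
    rate β g i (flipAt i x) = 1 - rate β g i x := by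
  have h := (add_pos (gibbs_pos β g x) (gibbs_pos β g (flipAt i x))).ne'
  simp only [rate, flipAt_flipAt]
  rw [add_comm (gibbs β g (flipAt i x))]
  field_simp
  ring

lemma jump_flip_self (i : Fin n) (f : Conf n → ℝ) (x : Conf n) :
    jump i f (flipAt i x) = -jump i f x := by
  simp [jump, flipAt_flipAt]

lemma flipAt_comm (i j : Fin n) (x : Conf n) :
    flipAt i (flipAt j x) = flipAt j (flipAt i x) := by
  rcases eq_or_ne i j with rfl | h
  · rfl
  funext k
  by_cases hi : k = i <;> by_cases hj : k = j <;> simp_all [flipAt]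

lemma jump_comm (i j : Fin n) (f : Conf n → ℝ) (x : Conf n) :
    jump i f (flipAt j x) - jump i f x = jump j f (flipAt i x) - jump j f x := by
  simp only [jump, flipAt_comm i j]
  ring

lemma gen_eq_rate (β : ℝ) (g : Edge n → ℝ) (f : Conf n → ℝ) (x : Conf n) :
    gen β g f x = -∑ i, rate β g i x * jump i f x := by
  rw [gen_apply, ← sum_neg_distrib]
  refine sum_congr rfl fun i _ => ?_
  have h := (add_pos (gibbs_pos β g x) (gibbs_pos β g (flipAt i x))).ne'
  simp only [heatBath, LinearMap.coe_mk, AddHom.coe_mk, rate, jump]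
  field_simp
  ring

lemma spin_flipAt (i k : Fin n) (x : Conf n) :
    spin (flipAt i x) k = spin x k - (if k = i then 2 * spin x i else 0) := by
  by_cases h : k = i
  · subst h
    cases hx : x k <;> simp [flipAt, spin, hx] <;> norm_num
  · simp [flipAt, spin, h]

lemma skJ_symm (β : ℝ) (g : Edge n → ℝ) (i j : Fin n) : skJ β g i j = skJ β g j i := by
  rcases lt_trichotomy i j with h | h | h
  · simp [skJ, sym, h, h.asymm]
  · rw [h]
  · simp [skJ, sym, h, h.asymm]

lemma skJ_diag (β : ℝ) (g : Edge n → ℝ) (i : Fin n) : skJ β g i i = 0 := by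
  simp [skJ, sym]

/-- Flipping one spin changes the exponent by minus twice the spin times its local field. -/
lemma energy_flip (β : ℝ) (g : Edge n → ℝ) (i : Fin n) (x : Conf n) :
    β * energy g (flipAt i x) =
      β * energy g x - 2 * spin x i * ∑ k, skJ β g i k * spin x k := by
  have e : ∀ k l, skJ β g k l * spin (flipAt i x) k * spin (flipAt i x) l =
      skJ β g k l * spin x k * spin x l
        - (if k = i then 2 * spin x i * (skJ β g i l * spin x l) else 0)
        - (if l = i then 2 * spin x i * (skJ β g i k * spin x k) else 0) := by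
    intro k l
    rw [spin_flipAt, spin_flipAt]
    by_cases hk : k = i <;> by_cases hl : l = i
    · subst hk hl; simp [skJ_diag]
    · subst hk; simp [hl]; ring
    · subst hl; simp [hk, skJ_symm β g k l]; ring
    · simp [hk, hl]
  simp only [← expo_skJ, expo, Pi.zero_apply, zero_mul, sum_const_zero, add_zero, e,
    sum_sub_distrib]
  have h1 : ∑ k : Fin n, ∑ l, (if k = i then 2 * spin x i * (skJ β g i l * spin x l) else 0) =
      2 * spin x i * ∑ l, skJ β g i l * spin x l := by
    rw [sum_comm]; simp [mul_sum]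
  have h2 : ∑ k : Fin n, ∑ l, (if l = i then 2 * spin x i * (skJ β g i k * spin x k) else 0) =
      2 * spin x i * ∑ l, skJ β g i l * spin x l := by
    simp [mul_sum]
  rw [h1, h2]
  ring

lemma rate_eq (β : ℝ) (g : Edge n → ℝ) (i : Fin n) (x : Conf n) :
    rate β g i x = Real.exp (-(2 * spin x i * ∑ k, skJ β g i k * spin x k)) /
      (1 + Real.exp (-(2 * spin x i * ∑ k, skJ β g i k * spin x k))) := by
  simp only [rate, gibbs, energy_flip β g i x, sub_eq_add_neg, Real.exp_add]
  have hZ : 0 < ∑ y, Real.exp (β * energy g y) := sum_pos (fun y _ => Real.exp_pos _) univ_nonempty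
  have hx := Real.exp_pos (β * energy g x)
  have he := Real.exp_pos (-(2 * spin x i * ∑ k, skJ β g i k * spin x k))
  field_simp

/-- The change of the rate at `i` when `j ≠ i` flips. -/
lemma rate_flip (β : ℝ) (g : Edge n → ℝ) {i j : Fin n} (h : i ≠ j) (x : Conf n) :
    rate β g i (flipAt j x) =
      rate β g i x * Real.exp (4 * skJ β g i j * spin x i * spin x j) /
        (1 + rate β g i x * (Real.exp (4 * skJ β g i j * spin x i * spin x j) - 1)) := by
  have hs : spin (flipAt j x) i = spin x i := by simp [spin_flipAt, h]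
  have hf : ∑ k, skJ β g i k * spin (flipAt j x) k =
      ∑ k, skJ β g i k * spin x k - 2 * skJ β g i j * spin x j := by
    simp only [spin_flipAt, mul_sub, sum_sub_distrib, mul_ite, mul_zero, sum_ite_eq',
      mem_univ, if_true]
    ring
  rw [rate_eq, rate_eq, hs, hf,
    show -(2 * spin x i * (∑ k, skJ β g i k * spin x k - 2 * skJ β g i j * spin x j)) =
      -(2 * spin x i * ∑ k, skJ β g i k * spin x k) + 4 * skJ β g i j * spin x i * spin x j by ring,
    Real.exp_add]
  set r := Real.exp (-(2 * spin x i * ∑ k, skJ β g i k * spin x k))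
  set e := Real.exp (4 * skJ β g i j * spin x i * spin x j)
  have hr : 0 < r := Real.exp_pos _
  have he : 0 < e := Real.exp_pos _
  have : 1 + r / (1 + r) * (e - 1) = (1 + r * e) / (1 + r) := by field_simp; ring
  rw [this]
  field_simp

/-- Quantitative first variation of a logistic rate. -/
lemma rate_variation {p δ : ℝ} (hp : 0 < p) (hp1 : p ≤ 1) (hδ : |δ| ≤ 1 / 4) :
    |p * Real.exp δ / (1 + p * (Real.exp δ - 1)) - p - p * (1 - p) * δ| ≤ 3 / 2 * δ ^ 2 ∧
    (p * Real.exp δ / (1 + p * (Real.exp δ - 1)) - p) ^ 2 ≤ 16 * δ ^ 2 * p := by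
  set ε := Real.exp δ - 1 with hε
  have h1 : |ε - δ| ≤ δ ^ 2 := Real.abs_exp_sub_one_sub_id_le (hδ.trans (by norm_num))
  have h2 : |ε| ≤ 2 * |δ| := Real.abs_exp_sub_one_le (hδ.trans (by norm_num))
  have hD : 1 / 2 ≤ 1 + p * ε := by
    have := mul_le_mul_of_nonneg_left ((abs_le.1 h2).1) hp.le
    nlinarith [abs_nonneg δ]
  have hD0 : 0 < 1 + p * ε := by linarith
  have e1 : p * Real.exp δ / (1 + p * ε) - p = p * (1 - p) * ε / (1 + p * ε) := by
    rw [show Real.exp δ = ε + 1 by linarith]
    field_simp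
    ring
  have hpq0 : 0 ≤ p * (1 - p) := mul_nonneg hp.le (by linarith)
  refine ⟨?_, ?_⟩
  · rw [e1, show p * (1 - p) * ε / (1 + p * ε) - p * (1 - p) * δ =
      p * (1 - p) * ((ε - δ - p * ε * δ) / (1 + p * ε)) by field_simp; ring, abs_mul,
      abs_of_nonneg hpq0, abs_div, abs_of_pos hD0]
    have hn : |ε - δ - p * ε * δ| ≤ 3 * δ ^ 2 := by
      refine (abs_sub _ _).trans ?_
      rw [abs_mul, abs_mul, abs_of_pos hp]
      have h3 : |ε| * |δ| ≤ 2 * δ ^ 2 := by
        rw [← sq_abs δ, sq]
        nlinarith [abs_nonneg δ]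
      nlinarith [mul_le_of_le_one_left (mul_nonneg (abs_nonneg ε) (abs_nonneg δ)) hp1]
    have hq : |ε - δ - p * ε * δ| / (1 + p * ε) ≤ 6 * δ ^ 2 := by
      rw [div_le_iff₀ hD0]
      nlinarith [sq_nonneg δ]
    calc _ ≤ (1 / 4) * (6 * δ ^ 2) :=
          mul_le_mul (by nlinarith [sq_nonneg (p - 1 / 2)]) hq (by positivity) (by norm_num)
      _ = _ := by ring
  · rw [e1, div_pow, div_le_iff₀ (by positivity)]
    have h3 : ε ^ 2 ≤ 4 * δ ^ 2 := by
      rw [← sq_abs ε, ← sq_abs δ]
      nlinarith [abs_nonneg ε, abs_nonneg δ]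
    have h4 : p * (1 - p) ^ 2 ≤ 1 := by nlinarith [mul_nonneg hp.le (mul_nonneg hp.le (sub_nonneg.2 hp1))]
    have h5 : 1 / 4 ≤ (1 + p * ε) ^ 2 := by nlinarith
    calc (p * (1 - p) * ε) ^ 2 = p * (p * (1 - p) ^ 2) * ε ^ 2 := by ring
      _ ≤ p * 1 * (4 * δ ^ 2) := by gcongr
      _ = 16 * δ ^ 2 * p * (1 / 4) := by ring
      _ ≤ _ := by gcongr

end Vale.Agent.P150.Lower
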