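import Vale.Agent.P150.Lower.Gradient

/-!
Two antipodal starts stay far apart in total variation up to times of order `log n`.
-/

open Finset

namespace Vale.Agent.P150.Lower

open Gap

variable {n : ℕ}

/-- Flip all spins. -/
def neg (x : Conf n) : Conf n := fun j => !x j

lemma neg_neg (x : Conf n) : neg (neg x) = x := by funext j; simp [neg]

lemma flipAt_neg (i : Fin n) (x : Conf n) : flipAt i (neg x) = neg (flipAt i x) := by
  funext j
  by_cases h : j = i
  · subst h; simp [flipAt, neg]
  · simp [flipAt, neg, h]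

lemma spin_neg (x : Conf n) (i : Fin n) : spin (neg x) i = -spin x i := spin_not x i

lemma gibbs_neg (β : ℝ) (g : Edge n → ℝ) (x : Conf n) : gibbs β g (neg x) = gibbs β g x :=
  gibbs_not β g x

lemma gen_comp_neg (β : ℝ) (g : Edge n → ℝ) (f : Conf n → ℝ) (x : Conf n) :
    gen β g (fun y => f (neg y)) x = gen β g f (neg x) := by
  simp only [gen_eq_rate, rate, jump, flipAt_neg, gibbs_neg]

lemma semi_comp_neg (β : ℝ) (g : Edge n → ℝ) (f : Conf n → ℝ) (t : ℝ) (x : Conf n) :
    semi β g t (fun y => f (neg y)) x = semi β g t f (neg x) := by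
  have hd : ∀ s, HasDerivAt (fun r => semi β g r (fun y => semi β g (t - r) f (neg y)) x) 0 s := by
    intro s
    refine (hasDerivAt_semi_comp β g (hasDerivAt_pi.2 fun y =>
      hasDerivAt_semi_sub β g f t s (neg y)) x).congr_deriv ?_
    have e : (gen β g fun y => semi β g (t - s) f (neg y)) +
        (fun y => -gen β g (semi β g (t - s) f) (neg y)) = 0 := by
      funext y
      simp [gen_comp_neg]
    rw [e, map_zero, Pi.zero_apply]
  have := is_const_of_deriv_eq_zero (fun s => (hd s).differentiableAt) (fun s => (hd s).deriv) t 0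
  simpa [semi_zero] using this

lemma lin_neg (y x : Conf n) : lin y (neg x) = -lin y x := by
  simp [lin, spin_neg]

lemma semi_lin_neg (β : ℝ) (g : Edge n → ℝ) (y : Conf n) (t : ℝ) (x : Conf n) :
    semi β g t (lin y) (neg x) = -semi β g t (lin y) x := by
  rw [← semi_comp_neg]
  simp only [lin_neg]
  show semi β g t (-lin y) x = _
  rw [map_neg, Pi.neg_apply]

lemma gradSq_lin (y x : Conf n) : gradSq (lin y) x = 4 * n := by
  have : ∀ i, jump i (lin y) x ^ 2 = 4 := fun i => by
    rw [jump, lin_flip, mul_pow, mul_pow, ← sq_abs (spin y i), ← sq_abs (spin x i), abs_spin, abs_spin]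
    norm_num
  simp [gradSq, this, mul_comm]

lemma avg_sq_spin (β : ℝ) (g : Edge n → ℝ) (i : Fin n) : avg β g (fun x => spin x i ^ 2) = 1 := by
  have h : ∀ x : Conf n, spin x i ^ 2 = 1 := fun x => by rw [← sq_abs, abs_spin, one_pow]
  simp [avg, h, sum_gibbs]

/-- The Dirichlet form of one spin is at most one. -/
lemma dirichlet_spin_le (β : ℝ) (g : Edge n → ℝ) (i : Fin n) :
    -avg β g (fun x => spin x i * gen β g (fun y => spin y i) x) ≤ 1 := by
  have h : ∀ x, gen β g (fun y => spin y i) x = -(rate β g i x * (2 * spin x i)) := by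
    intro x
    rw [gen_eq_rate, sum_eq_single i]
    · simp [jump, spin_flipAt]
    · intro k _ hk; simp [jump, spin_flipAt, Ne.symm hk]
    · simp
  have h2 : ∑ x, gibbs β g x * rate β g i x ≤ 1 / 2 := by
    calc ∑ x, gibbs β g x * rate β g i x
        ≤ ∑ x, (gibbs β g x + gibbs β g (flipAt i x)) / 4 := sum_le_sum fun x _ => by
          have hp := add_pos (gibbs_pos β g x) (gibbs_pos β g (flipAt i x))
          rw [rate, mul_div_assoc', div_le_iff₀ hp]
          nlinarith [sq_nonneg (gibbs β g x - gibbs β g (flipAt i x))]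
      _ = _ := by
          have hf : ∑ x, gibbs β g (flipAt i x) = ∑ x, gibbs β g x :=
            Equiv.sum_comp (flipAt_involutive i).toPerm (gibbs β g)
          rw [← sum_div, sum_add_distrib, hf, sum_gibbs]
          norm_num
  have hs : ∀ x : Conf n, spin x i * spin x i = 1 := fun x => by
    rw [← sq, ← sq_abs, abs_spin, one_pow]
  have h3 : -avg β g (fun x => spin x i * gen β g (fun y => spin y i) x) =
      2 * ∑ x, gibbs β g x * rate β g i x := by
    simp only [avg, h, mul_sum, ← sum_neg_distrib]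
    refine sum_congr rfl fun x _ => ?_
    linear_combination 2 * gibbs β g x * rate β g i x * hs x
  rw [h3]
  linarith

/-- The gap is at most one. -/
lemma gap_le_one (β : ℝ) (g : Edge n → ℝ) (hn : 0 < n) {lam : ℝ}
    (h : ∀ f : Conf n → ℝ,
      lam * (avg β g (fun x => f x ^ 2) - avg β g f ^ 2) ≤ -avg β g (fun x => f x * gen β g f x)) :
    lam ≤ 1 := by
  set i : Fin n := ⟨0, hn⟩
  have h0 : avg β g (fun x => spin x i) = 0 := by
    have hinv : Function.Involutive (neg (n := n)) := neg_neg
    have : avg β g (fun x => spin x i) = -avg β g (fun x => spin x i) := by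
      conv_lhs => rw [avg, ← Equiv.sum_comp hinv.toPerm]
      simp [avg, gibbs_neg, spin_neg]
    linarith
  have := h fun x => spin x i
  rw [avg_sq_spin, h0] at this
  linarith [dirichlet_spin_le β g i]

/-- The autocorrelation of a spin decays at most like `exp (-2 t)`. -/
lemma autocorr_spin_ge (β : ℝ) (g : Edge n → ℝ) (i : Fin n) {t : ℝ} (ht : 0 ≤ t) :
    Real.exp (-(2 * t)) ≤ avg β g (fun x => spin x i * semi β g t (fun y => spin y i) x) := by
  set f := fun y : Conf n => spin y i
  set φ := fun s => avg β g (fun x => f x * semi β g s f x)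
  have hsq : ∀ s, φ s ^ 2 ≤ φ (s + s) := by
    intro s
    have e : φ (s + s) = avg β g (fun x => semi β g s f x ^ 2) := by
      simp only [φ, semi_add, ContinuousLinearMap.mul_def, ContinuousLinearMap.comp_apply, sq]
      rw [← semi_symm]
    rw [e]
    simp only [φ, avg]
    have h1 : ∑ x, gibbs β g x * f x ^ 2 = 1 := avg_sq_spin β g i
    calc _ ≤ (∑ x, gibbs β g x * f x ^ 2) * ∑ x, gibbs β g x * semi β g s f x ^ 2 := by
          refine sum_sq_le_sum_mul_sum_of_sq_le_mul _ (fun x _ => ?_) (fun x _ => ?_) (fun x _ => ?_)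
          · exact mul_nonneg (gibbs_pos β g x).le (sq_nonneg _)
          · exact mul_nonneg (gibbs_pos β g x).le (sq_nonneg _)
          · exact le_of_eq (by ring)
      _ = _ := by rw [h1, one_mul]
  have step : ∀ k : ℕ, ∀ s : ℝ, 0 ≤ s → s ≤ (2:ℝ) ^ k / 2 → Real.exp (-(2 * s)) ≤ φ s := by
    intro k
    induction k with
    | zero =>
      intro s hs hs1
      have h1 := autocorr_ge β g f hs
      have h2 := dirichlet_spin_le β g i
      rw [avg_sq_spin] at h1
      have h3 : Real.exp (-(2 * s)) ≤ 1 - s := by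
        rw [Real.exp_neg, inv_le_iff_one_le_mul₀ (Real.exp_pos _)]
        have h4 := Real.add_one_le_exp (2 * s)
        have : 0 ≤ 1 - s := by simp at hs1; linarith
        nlinarith [mul_le_mul_of_nonneg_left h4 this]
      have h4 := mul_le_mul_of_nonneg_left h2 hs
      simp only [φ, f] at *
      linarith
    | succ k ih =>
      intro s hs hs1
      have h := ih (s / 2) (by linarith) (by rw [pow_succ] at hs1; linarith)
      have := hsq (s / 2)
      rw [add_halves] at this
      refine le_trans ?_ this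
      calc Real.exp (-(2 * s)) = Real.exp (-(2 * (s / 2))) ^ 2 := by
            rw [← Real.exp_nat_mul]; push_cast; ring_nf
        _ ≤ _ := pow_le_pow_left₀ (Real.exp_pos _).le h 2
  obtain ⟨k, hk⟩ := pow_unbounded_of_one_lt (2 * t) (one_lt_two : (1:ℝ) < 2)
  exact step k t ht (by linarith)

/-- Some start keeps overlap at least `n exp (-2 t)` with itself. -/
lemma exists_overlap (β : ℝ) (g : Edge n → ℝ) {t : ℝ} (ht : 0 ≤ t) :
    ∃ x : Conf n, (n : ℝ) * Real.exp (-(2 * t)) ≤ semi β g t (lin x) x := by
  have e : ∀ x : Conf n, semi β g t (lin x) x = ∑ i, spin x i * semi β g t (fun y => spin y i) x := by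
    intro x
    rw [show lin x = ∑ i, spin x i • fun y => spin y i from by
      funext z; simp [lin, Finset.sum_apply]]
    simp [map_sum, map_smul, Finset.sum_apply]
  have h : (n : ℝ) * Real.exp (-(2 * t)) ≤ avg β g (fun x => semi β g t (lin x) x) := by
    calc (n : ℝ) * Real.exp (-(2 * t)) = ∑ _i : Fin n, Real.exp (-(2 * t)) := by simp
      _ ≤ ∑ i, avg β g (fun x => spin x i * semi β g t (fun y => spin y i) x) :=
          sum_le_sum fun i _ => autocorr_spin_ge β g i ht
      _ = _ := by
          simp only [avg, e, mul_sum]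
          exact sum_comm
  by_contra hne
  push Not at hne
  have : avg β g (fun x => semi β g t (lin x) x) < (n : ℝ) * Real.exp (-(2 * t)) := by
    calc avg β g (fun x => semi β g t (lin x) x)
        < ∑ x, gibbs β g x * ((n : ℝ) * Real.exp (-(2 * t))) :=
          sum_lt_sum_of_nonempty univ_nonempty fun x _ =>
            mul_lt_mul_of_pos_left (hne x) (gibbs_pos β g x)
      _ = _ := by rw [← sum_mul, sum_gibbs, one_mul]
  linarith

lemma semi_eq_kernel (β : ℝ) (g : Edge n → ℝ) (f : Conf n → ℝ) (t : ℝ) (x : Conf n) :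
    semi β g t f x = ∑ y, f y * kernelAt β g t x y := by
  conv_lhs => rw [show f = ∑ y, f y • Pi.single y (1:ℝ) from by
    funext z; simp [Finset.sum_apply, Pi.single_apply]]
  simp [map_sum, map_smul, kernelAt, semi, Finset.sum_apply]

lemma tvDist_event (β : ℝ) (g : Edge n → ℝ) {t : ℝ} (x : Conf n) (A : Conf n → Prop)
    [DecidablePred A] :
    |semi β g t (fun y => if A y then 1 else 0) x - avg β g (fun y => if A y then 1 else 0)| ≤
      tvDist β g t x := by
  set d := fun y => kernelAt β g t x y - gibbs β g y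
  have hsum : ∑ y, d y = 0 := by
    have h1 : semi β g t (1 : Conf n → ℝ) x = ∑ y, kernelAt β g t x y := by
      rw [semi_eq_kernel]; simp
    simp only [semi_one, Pi.one_apply] at h1
    simp only [d, sum_sub_distrib, sum_gibbs, ← h1, sub_self]
  have he : semi β g t (fun y => if A y then 1 else 0) x - avg β g (fun y => if A y then 1 else 0) =
      ∑ y, (if A y then 1 else 0) * d y := by
    rw [semi_eq_kernel, avg, ← sum_sub_distrib]
    exact sum_congr rfl fun y _ => by simp only [d]; ring
  have he2 : ∑ y, (if A y then (1:ℝ) else 0) * d y = ∑ y, ((if A y then 1 else 0) - 1 / 2) * d y := by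
    simp only [sub_mul, sum_sub_distrib, ← mul_sum, hsum, mul_zero, sub_zero]
  rw [he, he2, tvDist, sum_div]
  refine (abs_sum_le_sum_abs _ _).trans (le_of_eq (sum_congr rfl fun y _ => ?_))
  rw [abs_mul, show |(if A y then (1:ℝ) else 0) - 1 / 2| = 1 / 2 by split_ifs <;> norm_num]
  simp only [d]
  ring

/-- If `f` has positive mean `m` and small variance under `P_t(x,·)`, it is positive there. -/
lemma chebyshev (β : ℝ) (g : Edge n → ℝ) {t : ℝ} (ht : 0 ≤ t) (f : Conf n → ℝ) (x : Conf n)
    {m V : ℝ} (hm : 0 < m) (hmf : m ≤ semi β g t f x)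
    (hV : semi β g t (fun y => f y ^ 2) x - semi β g t f x ^ 2 ≤ V) :
    semi β g t (fun y => if f y ≤ 0 then 1 else 0) x ≤ V / m ^ 2 := by
  set μ := semi β g t f x
  set q := fun y => (if f y ≤ 0 then 1 else 0 : ℝ)
  have hpt : ∀ y, μ ^ 2 * q y ≤ f y ^ 2 + -(2 * μ) * f y + μ ^ 2 := by
    intro y
    simp only [q]
    split_ifs with h
    · nlinarith [mul_nonneg (hm.le.trans hmf) (neg_nonneg.2 h)]
    · nlinarith [sq_nonneg (f y - μ)]
  have h1 : μ ^ 2 * semi β g t q x ≤
      semi β g t (fun y => f y ^ 2) x + -(2 * μ) * μ + μ ^ 2 := by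
    have := semi_mono β g ht (f := μ ^ 2 • q)
      (h := (fun y => f y ^ 2) + -(2 * μ) • f + μ ^ 2 • (1 : Conf n → ℝ))
      (fun y => by simpa using hpt y) x
    simpa [map_add, map_smul, semi_one, μ] using this
  have h2 : μ ^ 2 * semi β g t q x ≤ V := by linarith
  have hq0 : 0 ≤ semi β g t q x := semi_nonneg β g ht (fun y => by simp only [q]; split_ifs <;> norm_num) x
  rw [le_div_iff₀ (pow_pos hm 2)]
  calc semi β g t q x * m ^ 2 ≤ semi β g t q x * μ ^ 2 := by gcongr
    _ ≤ V := by linarith

/-- Antipodal starts are separated while `exp ((a + 4) t)` is small compared to `n`. -/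
theorem exists_tvDist_gt (β : ℝ) (g : Edge n → ℝ) {M R : ℝ} (hM : 0 ≤ M) (hR0 : 0 ≤ R)
    (hup : QuadLe (skJ β g) M) (hlo : QuadLe (fun i j => -skJ β g i j) M)
    (hd : ∀ i j, |skJ β g i j| ≤ 1 / 16) (hR : ∀ i, ∑ j, skJ β g i j ^ 2 ≤ R)
    {t : ℝ} (ht : 0 ≤ t) (hsmall : 16 * Real.exp ((growth M R + 4) * t) < n) :
    ∃ x, 1 / 4 < tvDist β g t x := by
  obtain ⟨x, hx⟩ := exists_overlap β g ht
  have hn : (0:ℝ) < n := lt_trans (by positivity) hsmall
  set m := (n : ℝ) * Real.exp (-(2 * t))
  set V := Real.exp (growth M R * t) * (4 * n)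
  have hm : 0 < m := by positivity
  have hVm : V / m ^ 2 < 1 / 4 := by
    have hexp : Real.exp ((growth M R + 4) * t) * Real.exp (-(2 * t)) ^ 2 =
        Real.exp (growth M R * t) := by
      rw [← Real.exp_nat_mul, ← Real.exp_add]; push_cast; ring_nf
    rw [div_lt_iff₀ (by positivity)]
    have := mul_lt_mul_of_pos_right hsmall
      (mul_pos hn (pow_pos (Real.exp_pos (-(2 * t))) 2))
    simp only [V, m, mul_pow, ← hexp]
    linarith
  have hvar : ∀ (y : Conf n), semi β g t (fun z => lin x z ^ 2) y - semi β g t (lin x) y ^ 2 ≤ V :=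
    fun y => semi_var_le β g hM hR0 hup hlo hd hR (fun z => (gradSq_lin x z).le) ht y
  have hP : semi β g t (fun y => if lin x y ≤ 0 then 1 else 0) x ≤ V / m ^ 2 :=
    chebyshev β g ht _ x hm hx (hvar x)
  have hQ : semi β g t (fun y => if -lin x y ≤ 0 then 1 else 0) (neg x) ≤ V / m ^ 2 := by
    refine chebyshev β g ht (fun y => -lin x y) (neg x) hm ?_ ?_
    · show m ≤ semi β g t (-lin x) (neg x)
      rw [map_neg, Pi.neg_apply, semi_lin_neg]
      simpa using hx
    · have e : semi β g t (fun y => -lin x y) (neg x) = -semi β g t (lin x) (neg x) := by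
        show semi β g t (-lin x) (neg x) = _
        rw [map_neg, Pi.neg_apply]
      simp only [neg_sq, e]
      exact hvar (neg x)
  have hcomp : ∀ y, (1:ℝ) ≤ (if lin x y ≤ 0 then 1 else 0) + (if -lin x y ≤ 0 then 1 else 0) := by
    intro y
    rcases le_or_gt (lin x y) 0 with h | h
    · simp only [h, if_true]; split_ifs <;> norm_num
    · have h' : -lin x y ≤ 0 := by linarith
      simp [h', not_le.2 h]
  have h1 := semi_mono β g ht (f := (1 : Conf n → ℝ))
    (h := (fun y => if lin x y ≤ 0 then (1:ℝ) else 0) + fun y => if -lin x y ≤ 0 then (1:ℝ) else 0)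
    hcomp (neg x)
  rw [semi_one, map_add] at h1
  simp only [Pi.one_apply, Pi.add_apply] at h1
  have d1 := tvDist_event β g (t := t) x (fun y => lin x y ≤ 0)
  have d2 := tvDist_event β g (t := t) (neg x) (fun y => lin x y ≤ 0)
  by_contra hne
  push Not at hne
  linarith [(abs_le.1 d1).1, (abs_le.1 d2).2, hne x, hne (neg x)]

end Vale.Agent.P150.Lower
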